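import Crest.Agent.N76.II.UT.Chain

/-! # Row 76: the upper tower `UT` from `AV`, `SG`, `CH` (helper14). -/

set_option autoImplicit false

open MeasureTheory Set Metric

namespace Crest.Agent.N76.II.UT

open Crest.Agent.N76.Red (V)
open Crest.Agent.N76.G

variable {d M : ℕ} {R B C : ℝ} {b j i₀ : ℕ} {ι : Type} {X : Finset ι} {p : ι → V d × ℝ}
  {w : ι → ℝ}

theorem chain {E : ℕ → ℝ} {D T e : ℝ} (hD : 1 ≤ D) (hT : 0 ≤ T) (he : 0 ≤ e)
    (hstep : ∀ i, i₀ ≤ i → i < M → E i ≤ D * (E (i + 1) + e)) (htop : E M ≤ D * (T + e))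
    (m : ℕ) : ∀ i, i₀ ≤ i → i + m = M → E i ≤ (2 * D) ^ (m + 1) * (T + e) := by
  induction m with
  | zero =>
    rintro i - rfl
    refine htop.trans ?_
    rw [zero_add, pow_one]
    gcongr; linarith
  | succ m ih =>
    intro i hi him
    have h1 := ih (i + 1) (by omega) (by omega)
    have h2 : 1 ≤ (2 * D) ^ (m + 1) := one_le_pow₀ (by linarith)
    have h3 : e ≤ (2 * D) ^ (m + 1) * (T + e) := by nlinarith
    calc E i ≤ D * (E (i + 1) + e) := hstep i hi (by omega)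
      _ ≤ D * ((2 * D) ^ (m + 1) * (T + e) + (2 * D) ^ (m + 1) * (T + e)) := by gcongr
      _ = _ := by ring

theorem mass_le (h : NF d M R B b j i₀) (hX : Reg R B X p w)
    (hR : ∀ z ∈ X, p z ∈ closedBall (0 : V d × ℝ) R) : ∑ z ∈ X, w z ≤ R ^ (d + 1) := by
  classical
  have h1 := hX.2 0 R h.hR
  have hS := h.S_one
  have hT := h.sqrt_one
  have hR1 := h.hR
  rw [ms, Finset.filter_true_of_mem hR, prd_eq_of_ge h.hR
    ((pow_le_pow_right₀ hS (by norm_num)).trans (h.S3_le.trans h.sqrt_le))] at h1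
  refine h1.trans ?_
  rw [← mul_div_assoc, div_le_iff₀ (by positivity), mul_comm]
  gcongr
  exact h.B_le_sqrt

theorem sg_num (h : NF d M R B b j i₀) {x : ℝ} (hx : x ≤ B) :
    x * (B ^ 3)⁻¹ * B ^ ((d : ℝ) / (d + 2)) *
      ((b : ℝ) ^ M * (B * (((b : ℝ) ^ M) ^ (d + 1) / √R))) ^ (2 / ((d : ℝ) + 2)) ≤
      (b : ℝ) ^ (2 * M) / (B * Ssc (d + 1) R ^ 2) := by
  have hB := h.B_pos
  have hS := h.S_one
  have hb : (0 : ℝ) < b := by linarith [h.b_two]
  have h1 : (b : ℝ) ^ M * (B * (((b : ℝ) ^ M) ^ (d + 1) / √R)) =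
      B * ((b : ℝ) ^ M / Ssc (d + 1) R) ^ (d + 2) := by
    rw [← Ssc_pow (d := d) h.hR, div_pow]; ring
  have h2 : B ^ ((d : ℝ) / (d + 2)) * B ^ (2 / ((d : ℝ) + 2)) = B := by
    rw [← Real.rpow_add hB, ← add_div, div_self (by positivity), Real.rpow_one]
  rw [h1, Real.mul_rpow hB.le (by positivity), ← Real.rpow_natCast (_ / _),
    ← Real.rpow_mul (by positivity),
    show ((d + 2 : ℕ) : ℝ) * (2 / ((d : ℝ) + 2)) = (2 : ℕ) by push_cast; field_simp,
    Real.rpow_natCast, div_pow, sq_pow, ← mul_assoc, mul_assoc (x * _), h2]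
  calc _ ≤ B * (B ^ 3)⁻¹ * B * ((b : ℝ) ^ (2 * M) / Ssc (d + 1) R ^ 2) := by gcongr
    _ = _ := by field_simp

theorem win_mem (h : NF d M R B b j i₀) {l : ℕ} (hl : l ≤ M) {t : ℝ} {k₀ : ℤ} (hk : win b M t = k₀) :
    win b l t ∈ Finset.Ico (k₀ * (b : ℤ) ^ (2 * (M - l))) ((k₀ + 1) * (b : ℤ) ^ (2 * (M - l))) := by
  have := h.b_pos
  rw [win_eq_div b hl, Nat.cast_pow, ediv_eq_iff (by positivity)] at hk
  exact Finset.mem_Ico.2 hk

end UT

open UT Crest.Agent.N76.G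
open Crest.Agent.N76.Red (V)

theorem ut_of (d : ℕ) (hd : 1 ≤ d) (hAV : AV d) (hSG : SG d) (hCH : CH d) : UT d := by
  classical
  intro α hα
  obtain ⟨C, hC, hAV⟩ := exists_bad hAV
  obtain ⟨M₀, hSG⟩ := hSG (2 * α) (by positivity) (4 * (d + 1))
  refine ⟨M₀, fun M hM => ?_⟩
  obtain ⟨b₀, hSG⟩ := hSG M hM
  obtain ⟨C', hC', hCH⟩ := hCH M
  have hD := one_le_Dc d M hC
  set Z : ℝ := 10 + 10 * √d + C * M + C' with hZ
  have hZ0 : 0 ≤ Z := by positivity
  set K : ℝ := 4 * (M : ℝ) ^ 2 * (2 + C' * (4 * M * (2 * d + 1)).factorial) with hK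
  refine ⟨K + (2 * Dc d M C) ^ (M + 1), max 1 (max (Z ^ α⁻¹) ((b₀ : ℝ) ^ (4 * M))), by positivity,
    le_max_left _ _, ?_⟩
  intro R hR B hB b hb hbB hL1 hL2 _ j i₀ k₁ hj hi h24 hS h23 hi0 hi0' hk₁ hk₂ ι X p w k₀ hX hXR hXk
  have hR1 : 1 ≤ R := (le_max_left _ _).trans hR
  have hZB : Z ≤ B := by
    refine le_trans ?_ hB
    rw [← Real.rpow_inv_rpow hZ0 hα.ne']
    exact Real.rpow_le_rpow (by positivity) (((le_max_left _ _).trans (le_max_right _ _)).trans hR)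
      hα.le
  have hCM : 0 ≤ C * M := by positivity
  have hd0 := Real.sqrt_nonneg d
  have h : NF d M R B b j i₀ := ⟨hd, hR1, by linarith, by linarith, hb, hbB, hL1, hL2, hj, hi, h24,
    hS, h23, hi0, hi0'⟩
  have hB0 := h.B_pos
  have hS1 := h.S_one
  have hb0 : (0 : ℝ) < b := by linarith [h.b_two]
  have hb₀ : b₀ ≤ b := by
    have h1 := (((le_max_right _ _).trans (le_max_right _ _)).trans hR).trans h.R_le
    exact_mod_cast (pow_le_pow_iff_left₀ (by positivity) hb0.le (by omega)).1 h1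
  obtain ⟨hN, hAV⟩ := hAV M R B b j i₀ k₁ h hk₁ hk₂ ι X p w hX hXR
  have hAV' : ∀ (l : ℕ) (k : ℤ), ∃ (Bad : Set (Ph d)) (E : Finset ι), MeasurableSet Bad ∧
      ∀ i, i₀ ≤ i → i < M → l = i + 1 → Good C R B b j i₀ k₁ X p w i k Bad E := by
    intro l k
    by_cases hl : i₀ < l ∧ l ≤ M
    · obtain ⟨Bad, E, h1, h2⟩ := hAV (l - 1) (by omega) (by omega) k
      exact ⟨Bad, E, h1, fun i _ _ hli => by rwa [hli, Nat.add_sub_cancel] at h2⟩
    · exact ⟨∅, ∅, MeasurableSet.empty, fun i _ _ _ => absurd ⟨by omega, by omega⟩ hl⟩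
  choose Bd Ex hBd hGood using hAV'
  set G : ℕ → ℤ → Set (Ph d) := fun l k => Dir d \ Bd l k with hGdef
  have hG : ∀ l k, MeasurableSet (G l k) := fun l k => measurableSet_Dir.diff (hBd l k)
  set e : ℝ := (b : ℝ) ^ (2 * M) / (B * Ssc (d + 1) R ^ 2) with he
  have he1 : 1 ≤ e := h.one_le_err
  refine ⟨G, (Finset.Ico i₀ M).biUnion fun i => (Finset.Ico (k₀ * (b : ℤ) ^ (2 * (M - (i + 1))))
    ((k₀ + 1) * (b : ℤ) ^ (2 * (M - (i + 1))))).biUnion (Ex (i + 1)), hG, fun l k β hβ => hβ.1,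
    ?_, fun 𝓡 g h𝓡 h𝓡2 => ⟨fun X' hX' hE => ?_, fun hne => ?_⟩⟩
  · refine Cov.mono (cov_biUnion _ _ p _
      (fun _ => C * R ^ d * (b : ℝ) ^ (2 * M) / (B ^ 3 * (2 ^ k₁) ^ (d + 1))) fun i hi' => ?_) ?_
    · obtain ⟨h1, h2⟩ := Finset.mem_Ico.1 hi'
      refine Cov.mono (cov_biUnion _ _ p _ _ fun k _ => (hGood (i + 1) k i h1 h2 rfl).1) (le_of_eq ?_)
      rw [Finset.sum_const, nsmul_eq_mul, Int.card_Ico, show (k₀ + 1) * (b : ℤ) ^ (2 * (M - (i + 1))) -
        k₀ * (b : ℤ) ^ (2 * (M - (i + 1))) = (b ^ (2 * (M - (i + 1))) : ℕ) by push_cast; ring,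
        Int.toNat_natCast, Nat.cast_pow, show 2 * M = 2 * (M - (i + 1)) + 2 * (i + 1) by omega, pow_add]
      ring
    · rw [Finset.sum_const, nsmul_eq_mul, Nat.card_Ico]
      have h1 : ((M - i₀ : ℕ) : ℝ) ≤ M := by exact_mod_cast Nat.sub_le _ _
      calc _ ≤ M * (C * R ^ d * (b : ℝ) ^ (2 * M) / (B ^ 3 * (2 ^ k₁) ^ (d + 1))) := by gcongr
        _ = C * M * (R ^ d * (b : ℝ) ^ (2 * M) / (B ^ 3 * (2 ^ k₁) ^ (d + 1))) := by ring
        _ ≤ B * (R ^ d * (b : ℝ) ^ (2 * M) / (B ^ 3 * (2 ^ k₁) ^ (d + 1))) := by gcongr; linarith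
        _ = _ := by field_simp
  · set H := loc √R 0 𝓡 g with hH
    have hT : 0 < √R := by positivity
    have hHg : ‖H‖ ≤ ‖g‖ := norm_loc_le hT 0 h𝓡 g
    have hX'R := Reg.mono hX hX'
    have hw := hX'R.1
    have hmass := mass_le h hX'R fun z hz => hXR z (hX' hz)
    have hterm : ∀ l ∈ Finset.Ico (i₀ + 1) (M + 1), En X' p w (fun z =>
        tower b (fun l' k => if l' = l then Dir d ∩ Bd l k else G l' k) l M H (p z).2 +
        loc ((b : ℝ) ^ l) (wt b l (p z).2) (Dir d)ᶜ (tower b G (l + 1) M H (p z).2)) ≤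
        2 * (2 + C' * (4 * M * (2 * d + 1)).factorial) * (e * ‖g‖ ^ 2) := by
      intro l hl
      obtain ⟨hl1, hl2⟩ := Finset.mem_Ico.1 hl
      obtain ⟨i, rfl⟩ : ∃ i, l = i + 1 := ⟨l - 1, by omega⟩
      refine (En_add_le hw _ _).trans ?_
      have h1 := hSG b hb₀ j (i + 1) (by omega) (by omega) ι X' p w k₀ hw
        (fun z hz => closedBall_subset_closedBall h.R_le (hXR z (hX' hz))) (fun z hz => hXk z (hX' hz))
        (fun l' k => if l' = i + 1 then Dir d ∩ Bd (i + 1) k else G l' k)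
        (fun l' k => by
          split_ifs
          exacts [measurableSet_Dir.inter (hBd _ _), hG _ _])
        (fun l' k β hβ => by
          split_ifs at hβ
          exacts [hβ.1, hβ.1])
        (B ^ 3)⁻¹ B (B * (((b : ℝ) ^ M) ^ (d + 1) / √R)) (by positivity) hB0.le (by positivity)
        (fun c => by
          have := hX'R.2 c _ (h.bpow_one (2 * j))
          rwa [prd_eq_one hR1 (by positivity) hS, mul_one] at this)
        (fun c => by
          have := hX'R.2 c _ (h.bpow_one M)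
          rwa [prd_eq_of_ge hR1 h.rho_le_bM] at this)
        (fun z hz => by
          rw [if_pos rfl]
          refine (hGood (i + 1) _ i (by omega) (by omega) rfl).2.1 z (hX' hz) rfl fun hzE => ?_
          exact hE z hz (Finset.mem_biUnion.2 ⟨i, Finset.mem_Ico.2 ⟨by omega, by omega⟩,
            Finset.mem_biUnion.2 ⟨_, win_mem h (by omega) (hXk z (hX' hz)), hzE⟩⟩)) H
      have h2 : (b : ℝ) ^ (2 * α * M) ≤ B := by
        refine le_trans ?_ hB
        rw [show 2 * α * M = ((2 * M : ℕ) : ℝ) * α by push_cast; ring, Real.rpow_mul hb0.le,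
          Real.rpow_natCast]
        gcongr
      have h3 : (∑ z ∈ X', w z) / (b : ℝ) ^ (4 * (d + 1) * M) ≤ e := by
        refine le_trans ((div_le_one (by positivity)).2 (hmass.trans ?_)) he1
        rw [show 4 * (d + 1) * M = 4 * M * (d + 1) by ring, pow_mul]
        gcongr
        exact h.R_le
      have h4 := h1.trans (mul_le_mul (add_le_add (sg_num h h2) h3)
        (pow_le_pow_left₀ (norm_nonneg _) hHg 2) (by positivity) (by positivity))
      have h5 := En_le_mass (p := p) hw (fun z => loc ((b : ℝ) ^ (i + 1)) (wt b (i + 1) (p z).2) (Dir d)ᶜ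
        (tower b G (i + 1 + 1) M H (p z).2)) (e := C' * R ^ d * Real.exp (-(b : ℝ)) * ‖g‖ ^ 2)
        fun z hz => by
          refine (norm_loc_sq_le (by positivity) _ measurableSet_Dir.compl _).trans ?_
          have h6 := win_le h.b_pos (i + 1) (p z).2
          refine hCH R b (i + 1 + 1) hR1 hb hL2 (by omega) G hG _ _ _ (C' * b * √R) 1 (h.bpow_one _)
            (h.bpow_mono (by omega)) (h.bpow_le_sqrt (by omega))
            ((norm_snd_le _).trans (mem_closedBall_zero_iff.1 (hXR z (hX' hz))))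
            (by rw [sq_pow, abs_le]; constructor <;> linarith [h6.1, h6.2, h.bpow_one (2 * (i + 1))])
            le_rfl ?_ 𝓡 _ h𝓡 measurableSet_Dir.compl (fun β hβ β' hβ' => Or.inr ?_) g
          · rw [div_le_one (by positivity), pow_succ]
            gcongr
            have h7 : B ≤ B ^ 24 := by simpa using h.Bpow_mono (show 1 ≤ 24 by norm_num)
            linarith [h.bpow_mono (show j ≤ i by omega)]
          · have h7 : 3 < ‖β.2‖ := not_le.1 hβ
            linarith [norm_sub_norm_le β.2 β'.2, h𝓡2 β' hβ']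
      have h6 : (∑ z ∈ X', w z) * (C' * R ^ d * Real.exp (-(b : ℝ)) * ‖g‖ ^ 2) ≤
          C' * (4 * M * (2 * d + 1)).factorial * (e * ‖g‖ ^ 2) := by
        calc _ ≤ R ^ (d + 1) * (C' * R ^ d * Real.exp (-(b : ℝ)) * ‖g‖ ^ 2) := by gcongr
          _ = C' * (R ^ (2 * d + 1) * Real.exp (-(b : ℝ))) * (1 * ‖g‖ ^ 2) := by ring
          _ ≤ _ := by gcongr; exact h.tail' _
      linarith
    have h1 : (fun z : ι => H) = fun z => tower b G (i₀ + 1) M H (p z).2 + _ := funext fun z =>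
      telescope h.b_pos G Bd hBd (fun _ _ => rfl) M H (p z).2 (M - i₀) (i₀ + 1) (by omega)
    rw [h1]
    refine (En_add_le hw _ _).trans (add_le_add le_rfl ?_)
    have h2 := (En_sum_le (p := p) hw (Finset.Ico (i₀ + 1) (M + 1)) _).trans
      (mul_le_mul_of_nonneg_left (Finset.sum_le_sum hterm) (Nat.cast_nonneg _))
    rw [Finset.sum_const, nsmul_eq_mul, Nat.card_Ico] at h2
    have h3 : ((M + 1 - (i₀ + 1) : ℕ) : ℝ) ≤ M := by exact_mod_cast (by omega)
    calc _ ≤ 2 * (M * (M * (2 * (2 + C' * (4 * M * (2 * d + 1)).factorial) * (e * ‖g‖ ^ 2)))) := by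
          refine mul_le_mul_of_nonneg_left (h2.trans ?_) zero_le_two
          gcongr
      _ = K * e * ‖g‖ ^ 2 := by rw [hK]; ring
      _ ≤ _ := by gcongr; exact le_add_of_nonneg_right (by positivity)
  · obtain ⟨z, hz⟩ := hne
    have hT : 0 < √R := by positivity
    have hHg : ‖loc √R 0 𝓡 g‖ ≤ ‖g‖ := norm_loc_le hT 0 h𝓡 g
    have h1 := win_le h.b_pos M (p z).2
    have h2 := abs_le.1 ((norm_snd_le _).trans (mem_closedBall_zero_iff.1 (hXR z hz)))
    rw [wt, hXk z hz] at h1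
    have h3 := chain_top (G := G) h hC (hN M hi.le) (k₀ := k₀)
      (by rw [abs_le]; constructor <;> linarith [h1.1, h1.2, h2.1, h2.2]) h𝓡 g
    have h4 : sc d R B b i₀ M = (b : ℝ) ^ (2 * M) / B ^ 20 := if_neg hi.ne'
    rw [h4] at h3
    have h0 : 0 ≤ ∫ β in 𝓡, xray (vv X p w ((b : ℝ) ^ (2 * M) / B ^ 20))
        ((k₀ - 1) * (b : ℝ) ^ (2 * M)) ((k₀ + 2) * (b : ℝ) ^ (2 * M)) β * ‖co √R 0 g β‖ ^ 2 :=
      integral_nonneg fun β => mul_nonneg (xray_nonneg (vv_nonneg hX.1 (by positivity))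
        (by nlinarith [h.bpow_one (2 * M)]) β) (by positivity)
    have h5 := chain (i₀ := i₀) (e := e * ‖g‖ ^ 2) hD h0 (by positivity) (fun i hi1 hi2 =>
      (chain_step h hC hX.1 hN hG (fun _ _ => diff_subset) hi1 hi2 k₀
        (fun k => (hGood (i + 1) k i hi1 hi2 rfl).2.2) _).trans (by gcongr)) h3 (M - i₀) i₀ le_rfl
      (by omega)
    have h6 : sc d R B b i₀ i₀ = Ssc (d + 1) R ^ 2 * B ^ 3 := if_pos rfl
    rw [Elev, h6] at h5
    refine h5.trans ?_
    rw [mul_assoc _ e, ← mul_add]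
    gcongr
    exact (pow_le_pow_right₀ (by linarith) (by omega)).trans (le_add_of_nonneg_left (by positivity))

end Crest.Agent.N76.II
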