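import Crest.Agent.N76.II.UT.Num

/-! # Row 76, upper tower: the bad lines of one window (helper14). -/

set_option autoImplicit false

open MeasureTheory Set Metric

namespace Crest.Agent.N76.II.UT

open Crest.Agent.N76.Red (V)
open Crest.Agent.N76.G

variable {d : ℕ}

theorem rpow_gam_le {B : ℝ} (hB : 1 ≤ B) (d : ℕ) : B ^ (2 / ((d : ℝ) + 2)) ≤ B :=
  Real.rpow_le_self_of_one_le hB (gam_exp_le_one d)

theorem Nice.mono {W : V d × ℝ → ℝ} {Mx Mx' r : ℝ} (h : Nice W Mx r) (hM : Mx ≤ Mx') :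
    Nice W Mx' r := ⟨h.1, fun u => ⟨(h.2.1 u).1, (h.2.1 u).2.trans hM⟩, h.2.2⟩

/-- the conclusion of the averaging lemma in the window `k` of the level `i + 1` -/
def Good {ι : Type} (C R B : ℝ) (b j i₀ k₁ : ℕ) (X : Finset ι) (p : ι → V d × ℝ) (w : ι → ℝ)
    (i : ℕ) (k : ℤ) (Bad : Set (Ph d)) (E : Finset ι) : Prop :=
  Cov E p (2 ^ k₁) (C * R ^ d * (b : ℝ) ^ (2 * (i + 1)) / (B ^ 3 * (2 ^ k₁) ^ (d + 1))) ∧
  (∀ z ∈ X, win b (i + 1) (p z).2 = k → z ∉ E → ∃ F : Finset (V d),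
    (F.card : ℝ) ≤ (B ^ 3)⁻¹ * ((b : ℝ) ^ j) ^ d ∧
    ∀ β ∈ Dir d ∩ Bad, ‖pos (p z).2 β - (p z).1‖ ≤ (b : ℝ) ^ (i + 1 + 1) →
      ∃ ζ ∈ F, ‖β.2 - ζ‖ ≤ 1 / (b : ℝ) ^ j) ∧
  ∀ β ∈ Dir d \ Bad,
    xray (vv X p w (sc d R B b i₀ i)) (k * (b : ℝ) ^ (2 * (i + 1)) - (b : ℝ) ^ (2 * (i + 1)) / 2)
      (k * (b : ℝ) ^ (2 * (i + 1)) - (b : ℝ) ^ (2 * (i + 1)) / 2 + 2 * (b : ℝ) ^ (2 * (i + 1))) β ≤
    C * xray (vv X p w (sc d R B b i₀ (i + 1))) ((k - 1) * (b : ℝ) ^ (2 * (i + 1)))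
      ((k + 2) * (b : ℝ) ^ (2 * (i + 1))) β +
    C * ((b : ℝ) ^ (2 * (i + 1)) / (B * Ssc (d + 1) R ^ 2))

theorem exists_bad (hAV : AV d) : ∃ C : ℝ, 1 ≤ C ∧ ∀ (M : ℕ) (R B : ℝ) (b j i₀ k₁ : ℕ),
    NF d M R B b j i₀ → Ssc (d + 1) R ^ 2 ≤ 2 ^ k₁ → (2 : ℝ) ^ k₁ ≤ 2 * Ssc (d + 1) R ^ 2 →
    ∀ (ι : Type) (X : Finset ι) (p : ι → V d × ℝ) (w : ι → ℝ), Reg R B X p w →
    (∀ z ∈ X, p z ∈ closedBall (0 : V d × ℝ) R) →
    (∀ i, i₀ ≤ i → Nice (vv X p w (sc d R B b i₀ i)) (C * B / Ssc (d + 1) R ^ 2)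
      (sc d R B b i₀ i)) ∧
    ∀ i, i₀ ≤ i → i < M → ∀ k : ℤ, ∃ (Bad : Set (Ph d)) (E : Finset ι), MeasurableSet Bad ∧
      Good C R B b j i₀ k₁ X p w i k Bad E := by
  classical
  obtain ⟨C₁, hC₁, hAV⟩ := hAV
  obtain ⟨C₂, hC₂, hD⟩ := exists_dens_const d
  have hC : 1 ≤ C₁ * C₂ := one_le_mul_of_one_le_of_one_le hC₁ hC₂
  refine ⟨54 * (C₁ * C₂), by linarith, fun M R B b j i₀ k₁ h hk₁ hk₂ ι X p w hX hR => ?_⟩
  obtain ⟨hD1, hD2⟩ := hD ι X p w hX.1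
  have hB := h.B_pos
  have hS := h.S_one
  have hN : ∀ i, i₀ ≤ i → Nice (vv X p w (sc d R B b i₀ i)) (C₂ * B / Ssc (d + 1) R ^ 2)
      (sc d R B b i₀ i) := fun i hi => by
    refine Nice.mono (hD2 R B _ h.hR h.B_one hX (h.rho_le_sc hi)).2 ?_
    gcongr
    exact rpow_gam_le h.B_one d
  refine ⟨fun i hi => Nice.mono (hN i hi) (by gcongr; nlinarith), fun i hi hiM k => ?_⟩
  set L : ℝ := (b : ℝ) ^ (2 * (i + 1)) with hL
  have hL1 : 1 ≤ L := h.bpow_one _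
  have hr := h.sc_pos hi
  have hr' := h.sc_pos (show i₀ ≤ i + 1 by omega)
  have hrr := h.sc_mono hi
  have hr'L : sc d R B b i₀ (i + 1) ≤ L / 2 := h.sc_le_half (by omega)
  have hkr : (2 : ℝ) ^ k₁ ≤ sc d R B b i₀ i := by
    refine hk₂.trans (le_trans ?_ (h.le_sc hi))
    rw [mul_comm]
    gcongr
    have : B ≤ B ^ 3 := by simpa using h.Bpow_mono (show 1 ≤ 3 by norm_num)
    linarith [h.hB]
  obtain ⟨Bad, E, hBad, hE, hF, hG⟩ := hAV {0} (fun _ => vv X p w (sc d R B b i₀ i)) 1 1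
    (C₂ * B / Ssc (d + 1) R ^ 2) (sc d R B b i₀ i) (sc d R B b i₀ (i + 1)) (2 ^ k₁)
    (k * L - L / 2) (2 * L) R (B ^ 2)⁻¹ (B ^ 3)⁻¹ ((b : ℝ) ^ j) ((b : ℝ) ^ (i + 1 + 1))
    le_rfl zero_le_one (by simp) (fun ξ => by simp) (by positivity) (fun _ _ => hN i hi)
    (by positivity) hkr (by linarith) hr' (by linarith)
    (by have := (h.bpow_mono (show 2 * (i + 1) ≤ 2 * M by omega)).trans h.hL2; linarith [h.hR])
    (by positivity) (by positivity) (h.bpow_one j) (by positivity)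
    (by
      have h1 := h.B_mul_le_sc hi
      have h2 : (b : ℝ) ^ (i + 1 + 1) = (b : ℝ) ^ 2 * (b : ℝ) ^ i := by ring
      have h3 : 0 ≤ (b : ℝ) ^ 2 * (b : ℝ) ^ i := by positivity
      rw [h2]
      nlinarith [h.hB])
    (h.win_le_sc hi) ι (X.filter fun z => win b (i + 1) (p z).2 = k) p
    (fun z hz => by
      obtain ⟨hz, hk⟩ := Finset.mem_filter.1 hz
      have h1 := win_le h.b_pos (i + 1) (p z).2
      rw [wt, hk] at h1
      refine ⟨(norm_fst_le _).trans (mem_closedBall_zero_iff.1 (hR z hz)), ?_, ?_⟩ <;>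
        linarith [h1.1, h1.2])
  refine ⟨Bad, E, hBad, Cov.mono hE ?_, fun z hz hk hzE => ?_, fun β hβ => ?_⟩
  · have h1 : √(1 * sc d R B b i₀ (i + 1) / (2 * L)) ≤ (B ^ 10)⁻¹ := by
      rw [h.sc_succ hi, ← hL]
      refine Real.sqrt_le_iff.2 ⟨by positivity, ?_⟩
      rw [div_le_iff₀ (by positivity), inv_pow, ← pow_mul, one_mul, div_eq_inv_mul]
      gcongr
      linarith
    have hR0 : 0 < R := by linarith [h.hR]
    calc _ ≤ C₁ * 1 ^ 2 * (B ^ 10)⁻¹ * R ^ d * (2 * L) /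
          (((B ^ 2)⁻¹) ^ 2 * (B ^ 3)⁻¹ * (2 ^ k₁) ^ (d + 1)) := by gcongr
      _ = 2 * C₁ * R ^ d * L / (B ^ 3 * (2 ^ k₁) ^ (d + 1)) := by field_simp
      _ ≤ _ := by
          have : 2 * C₁ ≤ 54 * (C₁ * C₂) := by nlinarith
          gcongr
  · obtain ⟨F, hF1, hF2⟩ := hF z (Finset.mem_filter.2 ⟨hz, hk⟩) hzE
    exact ⟨F, hF1, fun β hβ => hF2 β hβ.2 hβ.1⟩
  · have h1 := hG β hβ.2 hβ.1
    simp only [lw, Finset.sum_singleton, sub_zero, neg_mul, one_mul] at h1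
    have h2 : xray (bavg (vv X p w (sc d R B b i₀ i)) (sc d R B b i₀ (i + 1)))
        (k * L - L / 2 - sc d R B b i₀ (i + 1)) (k * L - L / 2 + 2 * L + sc d R B b i₀ (i + 1)) β ≤
        C₂ * xray (vv X p w (sc d R B b i₀ (i + 1))) ((k - 1) * L) ((k + 2) * L) β := by
      refine (xray_mono (W' := fun u => C₂ * vv X p w (sc d R B b i₀ (i + 1)) u)
        (continuous_bavg (continuous_vv _) _) (continuous_const.mul (continuous_vv _))
        (fun u => mul_nonneg (by linarith) (vv_nonneg hX.1 hr' u))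
        (fun u => (hD1 _ _ u hr hrr).2) (s₁ := (k - 1) * L) (s₂ := (k + 2) * L) (by linarith)
        (by linarith) (by linarith) β).trans_eq ?_
      rw [xray, xray, intervalIntegral.integral_const_mul]
    have h3 : 0 ≤ xray (vv X p w (sc d R B b i₀ (i + 1))) ((k - 1) * L) ((k + 2) * L) β :=
      xray_nonneg (vv_nonneg hX.1 hr') (by linarith) β
    have h4 : 1 ≤ 27 * Real.exp (-‖β.2‖) := by
      have h5 : Real.exp ‖β.2‖ ≤ 27 := by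
        calc _ ≤ Real.exp (3 : ℕ) := Real.exp_le_exp.2 (by exact_mod_cast hβ.1)
          _ = Real.exp 1 ^ 3 := by rw [← Real.exp_nat_mul, mul_one]
          _ ≤ 3 ^ 3 := by gcongr; exact Real.exp_one_lt_three.le
          _ = 27 := by norm_num
      rw [Real.exp_neg, ← div_eq_mul_inv, one_le_div (Real.exp_pos _)]
      exact h5
    have h6 : Real.exp (-‖β.2‖) ≤ 1 := Real.exp_le_one_iff.2 (by simp)
    have h7 : C₁ * (B ^ 2)⁻¹ * (C₂ * B / Ssc (d + 1) R ^ 2) * (2 * L) =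
        2 * (C₁ * C₂) * (L / (B * Ssc (d + 1) R ^ 2)) := by field_simp
    rw [h7] at h1
    have h8 : 0 ≤ xray (vv X p w (sc d R B b i₀ i)) (k * L - L / 2) (k * L - L / 2 + 2 * L) β :=
      xray_nonneg (vv_nonneg hX.1 hr) (by linarith) β
    have h9 : C₁ * (Real.exp (-‖β.2‖) * xray (bavg (vv X p w (sc d R B b i₀ i))
        (sc d R B b i₀ (i + 1))) (k * L - L / 2 - sc d R B b i₀ (i + 1))
        (k * L - L / 2 + 2 * L + sc d R B b i₀ (i + 1)) β) ≤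
        C₁ * (1 * (C₂ * xray (vv X p w (sc d R B b i₀ (i + 1))) ((k - 1) * L) ((k + 2) * L) β)) := by
      refine mul_le_mul_of_nonneg_left ((mul_le_mul_of_nonneg_left h2 (Real.exp_pos _).le).trans
        (mul_le_mul_of_nonneg_right h6 (by positivity))) (by linarith)
    have h10 := mul_le_mul_of_nonneg_right h4 h8
    have h11 : 0 ≤ C₁ * C₂ * xray (vv X p w (sc d R B b i₀ (i + 1))) ((k - 1) * L) ((k + 2) * L) β :=
      by positivity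
    nlinarith

end Crest.Agent.N76.II.UT
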