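import Crest.Agent.N76.II.Dens
import Crest.Agent.N76.G.Tail

/-! # Row 76, upper tower: elementary tools (helper14). -/

set_option autoImplicit false

open MeasureTheory Set Metric
open scoped RealInnerProductSpace

namespace Crest.Agent.N76.II.UT

open Crest.Agent.N76.Red (V)
open Crest.Agent.N76.G

variable {d : ℕ}

theorem ediv_eq_iff {k k' c : ℤ} (hc : 0 < c) : k / c = k' ↔ k' * c ≤ k ∧ k < (k' + 1) * c := by
  rw [← Int.le_ediv_iff_mul_le hc, ← Int.ediv_lt_iff_lt_mul hc]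
  omega

theorem sum_windows (f : ℤ → ℝ) (u v : ℤ) {c : ℤ} (hc : 0 < c) :
    ∑ k ∈ Finset.Ico (u * c) (v * c), f k =
      ∑ k' ∈ Finset.Ico u v, ∑ k ∈ Finset.Ico (k' * c) ((k' + 1) * c), f k := by
  rw [← Finset.sum_fiberwise_of_maps_to (g := fun k => k / c) (t := Finset.Ico u v)]
  · refine Finset.sum_congr rfl fun k' hk' => Finset.sum_congr ?_ fun _ _ => rfl
    ext k
    rw [Finset.mem_filter, Finset.mem_Ico, Finset.mem_Ico, ediv_eq_iff hc]
    rw [Finset.mem_Ico] at hk'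
    constructor
    · exact fun h => h.2
    · intro h
      refine ⟨⟨le_trans ?_ h.1, lt_of_lt_of_le h.2 ?_⟩, h⟩
      · exact mul_le_mul_of_nonneg_right hk'.1 hc.le
      · exact mul_le_mul_of_nonneg_right hk'.2 hc.le
  · intro k hk
    rw [Finset.mem_Ico] at hk ⊢
    exact ⟨(Int.le_ediv_iff_mul_le hc).2 hk.1, (Int.ediv_lt_iff_lt_mul hc).2 hk.2⟩

theorem pow_mul_exp_neg_le {x : ℝ} (hx : 0 ≤ x) (N : ℕ) : x ^ N * Real.exp (-x) ≤ N.factorial := by
  have h := Real.pow_div_factorial_le_exp x hx N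
  have hf : (0 : ℝ) < N.factorial := by exact_mod_cast N.factorial_pos
  rw [div_le_iff₀ hf] at h
  rw [Real.exp_neg, ← div_eq_mul_inv, div_le_iff₀ (Real.exp_pos _)]
  linarith

theorem ms_mono {ι α : Type*} {X X' : Finset ι} {p : ι → α} {w : ι → ℝ} (hw : ∀ z ∈ X, 0 ≤ w z)
    (h : X' ⊆ X) (E : Set α) : ms X' p w E ≤ ms X p w E := by
  classical
  unfold ms
  exact Finset.sum_le_sum_of_subset_of_nonneg (Finset.filter_subset_filter _ h)
    fun z hz _ => hw z (Finset.mem_filter.1 hz).1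

theorem Reg.mono {ι : Type*} {R B : ℝ} {X X' : Finset ι} {p : ι → V d × ℝ} {w : ι → ℝ}
    (hX : Reg R B X p w) (h : X' ⊆ X) : Reg R B X' p w :=
  ⟨fun z hz => hX.1 z (h hz), fun u r hr => (ms_mono hX.1 h _).trans (hX.2 u r hr)⟩

theorem En_sum_le {ι κ : Type*} {X : Finset ι} {p : ι → V d × ℝ} {w : ι → ℝ}
    (hw : ∀ z ∈ X, 0 ≤ w z) (s : Finset κ) (H : κ → ι → L2 d) :
    En X p w (fun z => ∑ i ∈ s, H i z) ≤ s.card * ∑ i ∈ s, En X p w (H i) := by
  unfold En
  rw [Finset.sum_comm, Finset.mul_sum]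
  refine Finset.sum_le_sum fun z hz => ?_
  rw [← Finset.mul_sum, mul_left_comm]
  gcongr
  · exact hw z hz
  rw [inner_sum]
  exact (pow_le_pow_left₀ (norm_nonneg _) (norm_sum_le _ _) 2).trans sq_sum_le_card_mul_sum_sq

theorem cov_biUnion {ι κ α : Type*} [DecidableEq ι] [PseudoMetricSpace α] (s : Finset κ)
    (E : κ → Finset ι) (p : ι → α) (r : ℝ) (N : κ → ℝ) (h : ∀ k ∈ s, Cov (E k) p r (N k)) :
    Cov (s.biUnion E) p r (∑ k ∈ s, N k) := by
  classical
  have h' : ∀ k, ∃ F : Finset α, k ∈ s → (F.card : ℝ) ≤ N k ∧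
      ∀ i ∈ E k, ∃ c ∈ F, dist (p i) c ≤ r := fun k => by
    by_cases hk : k ∈ s
    · obtain ⟨F, hF⟩ := h k hk
      exact ⟨F, fun _ => hF⟩
    · exact ⟨∅, fun h => absurd h hk⟩
  choose F hF using h'
  refine ⟨s.biUnion F, ?_, fun i hi => ?_⟩
  · have : ((s.biUnion F).card : ℝ) ≤ ∑ k ∈ s, ((F k).card : ℝ) := by
      exact_mod_cast Finset.card_biUnion_le
    exact this.trans (Finset.sum_le_sum fun k hk => (hF k hk).1)
  · obtain ⟨k, hk, hik⟩ := Finset.mem_biUnion.1 hi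
    obtain ⟨c, hc, hd⟩ := (hF k hk).2 i hik
    exact ⟨c, Finset.mem_biUnion.2 ⟨k, hk, hc⟩, hd⟩

theorem Cov.mono {ι α : Type*} [PseudoMetricSpace α] {E : Finset ι} {p : ι → α} {r N N' : ℝ}
    (h : Cov E p r N) (hN : N ≤ N') : Cov E p r N' := by
  obtain ⟨F, h1, h2⟩ := h
  exact ⟨F, h1.trans hN, h2⟩

/-- lines with direction at most `3` -/
def Dir (d : ℕ) : Set (Ph d) := {β | ‖β.2‖ ≤ 3}

theorem measurableSet_Dir : MeasurableSet (Dir d) :=
  measurableSet_le (by fun_prop) measurable_const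

theorem win_le {b : ℕ} (hb : 0 < b) (j : ℕ) (t : ℝ) :
    wt b j t ≤ t ∧ t < wt b j t + (b : ℝ) ^ (2 * j) := by
  have h0 : (0 : ℝ) < (b : ℝ) ^ (2 * j) := by positivity
  have h1 := Int.floor_le (t / (b : ℝ) ^ (2 * j))
  have h2 := Int.lt_floor_add_one (t / (b : ℝ) ^ (2 * j))
  rw [le_div_iff₀ h0] at h1
  rw [div_lt_iff₀ h0] at h2
  exact ⟨h1, by unfold wt win; linarith⟩

theorem win_int {b : ℕ} (hb : 0 < b) (j : ℕ) (k : ℤ) : win b j (k * (b : ℝ) ^ (2 * j)) = k := by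
  have h0 : (0 : ℝ) < (b : ℝ) ^ (2 * j) := by positivity
  rw [win, mul_div_cancel_right₀ _ h0.ne', Int.floor_intCast]

/-- telescoping of a tower -/
theorem telescope {b : ℕ} (hb : 0 < b) (G Bd : ℕ → ℤ → Set (Ph d))
    (hB : ∀ l k, MeasurableSet (Bd l k)) (hG : ∀ l k, G l k = Dir d \ Bd l k) (M : ℕ) (h : L2 d)
    (t : ℝ) (m i : ℕ) (hi : i + m = M + 1) :
    h = tower b G i M h t + ∑ l ∈ Finset.Ico i (M + 1),
      (tower b (fun l' k => if l' = l then Dir d ∩ Bd l k else G l' k) l M h t +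
        loc ((b : ℝ) ^ l) (wt b l t) (Dir d)ᶜ (tower b G (l + 1) M h t)) := by
  induction m generalizing i with
  | zero =>
    obtain rfl : i = M + 1 := by omega
    simp [tower_top]
  | succ m ih =>
    have hiM : i ≤ M := by omega
    have ha : (0 : ℝ) < (b : ℝ) ^ i := by positivity
    rw [Finset.sum_eq_sum_Ico_succ_bot (by omega)]
    have h1 := ih (i + 1) (by omega)
    have h2 : tower b (fun l' k => if l' = i then Dir d ∩ Bd i k else G l' k) (i + 1) M h t =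
        tower b G (i + 1) M h t := by
      refine tw_congr _ _ (fun j hj => ?_) h
      simp only [lev, if_neg (show j ≠ i by omega)]
    have h3 : tower b G (i + 1) M h t = tower b G i M h t +
        (tower b (fun l' k => if l' = i then Dir d ∩ Bd i k else G l' k) i M h t +
        loc ((b : ℝ) ^ i) (wt b i t) (Dir d)ᶜ (tower b G (i + 1) M h t)) := by
      rw [tower_eq_loc b G hiM, tower_eq_loc b _ hiM, h2]
      simp only [lev, if_true, hG]
      rw [← loc_union ha _ (measurableSet_Dir.inter (hB _ _)) measurableSet_Dir.compl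
        (Set.disjoint_left.2 fun β h1 h2 => h2 h1.1),
        ← loc_union ha _ (measurableSet_Dir.diff (hB _ _))
          ((measurableSet_Dir.inter (hB _ _)).union measurableSet_Dir.compl)
          (Set.disjoint_left.2 fun β h1 h2 => h2.elim (fun h3 => h1.2 h3.2) fun h3 => h3 h1.1)]
      convert (loc_univ ha (wt b i t) _).symm using 2
      ext β
      simp only [mem_union, mem_diff, mem_inter_iff, mem_compl_iff, mem_univ, iff_true]
      tauto
    rw [← add_assoc, ← h3]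
    exact h1

/-- transfer of the weight of a line to a higher frame -/
theorem xray_transfer {W : V d × ℝ → ℝ} {Mx r : ℝ} (hW : Nice W Mx r) (hr : 0 < r)
    {a a' t t' R q : ℝ} (ha : 1 ≤ a) (haa : a ≤ a') (hR : a' ^ 2 ≤ R) (ht : |t - t'| ≤ 2 * a' ^ 2)
    (hq : 1 ≤ q) (hqr : 10 * √d * q * a' ≤ r) {c : Ph d → ℂ} (hc : MemLp c 2 volume) :
    ∫ β in Dir d, xray W (t - a ^ 2) (t + 2 * a ^ 2) β * ‖co a t (syn a' t' c) β‖ ^ 2 ≤
      6 * 9 ^ d * (∫ β, xray W (t - a ^ 2) (t + 2 * a ^ 2) β * ‖c β‖ ^ 2) +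
      18 * 16 ^ d * ((5 * R) ^ d * Real.exp (-(q ^ 2 / 7))) * (Mx * a ^ 2) * ∫ β, ‖c β‖ ^ 2 := by
  have ha0 : 0 < a := by linarith
  have ha0' : 0 < a' := by linarith
  have hI : t - a ^ 2 ≤ t + 2 * a ^ 2 := by nlinarith
  have hMx : 0 ≤ Mx := (hW.2.1 0).1.trans (hW.2.1 0).2
  set x : Ph d → ℝ := xray W (t - a ^ 2) (t + 2 * a ^ 2) with hx
  have hxc : Continuous x := continuous_xray hW.1 _ _
  have hx0 : ∀ β, 0 ≤ x β := xray_nonneg (fun u => (hW.2.1 u).1) hI
  have hx1 : ∀ β, x β ≤ 3 * (Mx * a ^ 2) := fun β =>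
    (xray_le hW.1 (fun u => (hW.2.1 u).2) hI β).trans (le_of_eq (by ring))
  have he : Real.exp 1 ≤ 3 := Real.exp_one_lt_three.le
  have h := transfer ha0 ha0' t t' t hc (W := x) (W' := fun β => 3 * x β) hxc.measurable
    (hxc.measurable.const_mul 3) (Wm := 9 * (Mx * a ^ 2)) hx0 (fun β => by linarith [hx0 β])
    (fun β => by nlinarith [hx1 β, hx0 β]) (fun β => by linarith [hx1 β])
    (r₁ := q * a') (r₂ := q / a) (s := q ^ 2 / 20) (by positivity) (by positivity) ?_ ?_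
  · refine le_trans (setIntegral_le_integral (integrable_weight hxc.measurable
      (fun β => by rw [abs_of_nonneg (hx0 β)]; exact hx1 β) (memLp_co ha0 _ _))
      (Filter.Eventually.of_forall fun β => mul_nonneg (hx0 β) (by positivity))) (h.trans ?_)
    simp_rw [mul_assoc (3 : ℝ)]
    rw [integral_const_mul]
    refine add_le_add (le_of_eq (by ring)) ?_
    have hc0 : 0 ≤ ∫ β, ‖c β‖ ^ 2 := integral_nonneg fun β => by positivity
    gcongr
    have hR1 : 1 ≤ 5 * R := by nlinarith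
    have h1 : ((5 * R) ^ d)⁻¹ ≤ pre d a t a' t' ^ 2 := by
      refine le_trans ?_ (pre_sq_ge ha0 haa ht)
      rw [← inv_pow, ← Real.rpow_natCast]
      have h2 : (5 * R)⁻¹ ≤ a ^ 2 / (5 * a' ^ 2) := by
        rw [← one_div]; gcongr; nlinarith
      calc (5 * R)⁻¹ ^ (d : ℝ) ≤ (5 * R)⁻¹ ^ ((d : ℝ) / 2) :=
            Real.rpow_le_rpow_of_exponent_ge (by positivity) (inv_le_one_of_one_le₀ hR1)
              (by have : (0 : ℝ) ≤ d := Nat.cast_nonneg d; linarith)
        _ ≤ _ := by gcongr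
    have h3 : Real.exp (-Real.pi * (q ^ 2 / 20)) ≤ Real.exp (-(q ^ 2 / 7)) := by
      refine Real.exp_le_exp.2 ?_
      nlinarith [Real.pi_gt_three, sq_nonneg q]
    calc _ ≤ 2 * (9 * (Mx * a ^ 2)) * 16 ^ d * Real.exp (-(q ^ 2 / 7)) / ((5 * R) ^ d)⁻¹ := by
          gcongr
      _ = _ := by field_simp; ring
  · intro β β' h1 h2
    refine (xray_close hW hr hI (s := r) (β' := β') fun τ hτ => ?_).trans ?_
    · have e : pos τ (β - β') = pos t (β - β') - (2 * (τ - t)) • (β - β').2 := by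
        simp only [pos, mul_sub, sub_smul]; abel
      rw [e]
      refine (norm_sub_le _ _).trans ?_
      have h3 : |2 * (τ - t)| ≤ 4 * a ^ 2 := by
        rw [abs_le]; constructor <;> nlinarith [hτ.1, hτ.2]
      have h4 : ‖(2 * (τ - t)) • (β - β').2‖ ≤ 4 * a ^ 2 * (2 * √d * (q / a)) := by
        rw [norm_smul, Real.norm_eq_abs]; gcongr
      have h5 : 4 * a ^ 2 * (2 * √d * (q / a)) = 8 * √d * q * a := by field_simp; ring
      have h6 : 8 * √d * q * a ≤ 8 * √d * q * a' := by gcongr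
      linarith
    · rw [div_self hr.ne']
      exact mul_le_mul_of_nonneg_right he (hx0 β')
  · intro Δ hΔ
    refine le_trans ?_ (Qf_ge_two ha0 haa ht Δ)
    rcases hΔ with h1 | h1
    · have : q ^ 2 / 20 ≤ ‖pos t Δ‖ ^ 2 / (20 * a' ^ 2) := by
        rw [div_le_div_iff₀ (by norm_num) (by positivity)]
        have := pow_le_pow_left₀ (by positivity) h1 2
        nlinarith
      have : 0 ≤ a ^ 2 * ‖Δ.2‖ ^ 2 / 20 := by positivity
      linarith
    · have : q ^ 2 ≤ a ^ 2 * ‖Δ.2‖ ^ 2 := by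
        rw [div_le_iff₀ ha0] at h1
        have := pow_le_pow_left₀ (by positivity) h1 2
        nlinarith
      have : 0 ≤ ‖pos t Δ‖ ^ 2 / (20 * a' ^ 2) := by positivity
      linarith

end Crest.Agent.N76.II.UT
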