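import Crest.Agent.N76.II.UT.Av

/-! # Row 76, upper tower: the downward chain of weighted energies (helper14). -/

set_option autoImplicit false

open MeasureTheory Set Metric

namespace Crest.Agent.N76.II.UT

open Crest.Agent.N76.Red (V)
open Crest.Agent.N76.G

variable {d : ℕ}

theorem integrable_xray {W : V d × ℝ → ℝ} {Mx r : ℝ} (hW : Nice W Mx r) {t₁ t₂ : ℝ} (h : t₁ ≤ t₂)
    {c : Ph d → ℂ} (hc : MemLp c 2 volume) : Integrable fun β => xray W t₁ t₂ β * ‖c β‖ ^ 2 :=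
  integrable_weight (continuous_xray hW.1 _ _).measurable (Wm := Mx * (t₂ - t₁)) (fun β => by
    rw [abs_of_nonneg (xray_nonneg (fun u => (hW.2.1 u).1) h β)]
    exact xray_le hW.1 (fun u => (hW.2.1 u).2) h β) hc

theorem integral_indicator_co_le {a : ℝ} (ha : 0 < a) (t : ℝ) (A : Set (Ph d))
    (H : L2 d) : ∫ β, ‖A.indicator (co a t H) β‖ ^ 2 ≤ ‖H‖ ^ 2 := by
  rw [← integral_co_sq ha t H]
  refine integral_mono_of_nonneg (.of_forall fun β => by positivity)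
    ((memLp_co ha t H).integrable_norm_pow two_ne_zero) (.of_forall fun β => ?_)
  exact pow_le_pow_left₀ (norm_nonneg _) (norm_indicator_le_norm_self _ _) 2

/-- one step of the chain inside one window of the upper level -/
theorem step {M : ℕ} {R B : ℝ} {b j i₀ : ℕ} (h : NF d M R B b j i₀) {i : ℕ} (hi : i₀ ≤ i)
    (hiM : i < M) {W W' : V d × ℝ → ℝ} {Mx Mx' r' C e : ℝ} (hW : Nice W Mx (sc d R B b i₀ i))
    (hW' : Nice W' Mx' r') (hC : 0 ≤ C) (he : 0 ≤ e) {G' : Set (Ph d)} (hG' : MeasurableSet G')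
    (hGD : G' ⊆ Dir d) (k' : ℤ)
    (hav : ∀ β ∈ G', xray W (k' * (b : ℝ) ^ (2 * (i + 1)) - (b : ℝ) ^ (2 * (i + 1)) / 2)
      (k' * (b : ℝ) ^ (2 * (i + 1)) - (b : ℝ) ^ (2 * (i + 1)) / 2 + 2 * (b : ℝ) ^ (2 * (i + 1))) β ≤
      C * xray W' ((k' - 1) * (b : ℝ) ^ (2 * (i + 1))) ((k' + 2) * (b : ℝ) ^ (2 * (i + 1))) β +
      C * e) (H : L2 d) :
    ∑ k ∈ Finset.Ico (k' * (b : ℤ) ^ 2) ((k' + 1) * (b : ℤ) ^ 2),
      ∫ β in Dir d, xray W ((k - 1) * (b : ℝ) ^ (2 * i)) ((k + 2) * (b : ℝ) ^ (2 * i)) β *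
        ‖co ((b : ℝ) ^ i) (k * (b : ℝ) ^ (2 * i))
          (loc ((b : ℝ) ^ (i + 1)) (k' * (b : ℝ) ^ (2 * (i + 1))) G' H) β‖ ^ 2 ≤
    18 * 9 ^ d * C * ((∫ β in Dir d,
        xray W' ((k' - 1) * (b : ℝ) ^ (2 * (i + 1))) ((k' + 2) * (b : ℝ) ^ (2 * (i + 1))) β *
        ‖co ((b : ℝ) ^ (i + 1)) (k' * (b : ℝ) ^ (2 * (i + 1))) H β‖ ^ 2) + e * ‖H‖ ^ 2) +
      18 * 16 ^ d * ((5 * R) ^ d * Real.exp (-((b : ℝ) ^ 2 / 7))) *
        (Mx * (b : ℝ) ^ (2 * (i + 1))) * ‖H‖ ^ 2 := by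
  have hb2 := h.b_two
  have hR := h.hR
  set L : ℝ := (b : ℝ) ^ (2 * i) with hL
  have hL' : (b : ℝ) ^ (2 * (i + 1)) = (b : ℝ) ^ 2 * L := by rw [hL]; ring
  have hL1 : 1 ≤ L := h.bpow_one _
  have hb4 : (4 : ℝ) ≤ (b : ℝ) ^ 2 := by nlinarith
  have ha' : (0 : ℝ) < (b : ℝ) ^ (i + 1) := by positivity
  have hMx : 0 ≤ Mx := (hW.2.1 0).1.trans (hW.2.1 0).2
  have hW0 : ∀ u, 0 ≤ W u := fun u => (hW.2.1 u).1
  rw [hL'] at hav ⊢
  set t' : ℝ := k' * ((b : ℝ) ^ 2 * L) with ht'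
  set c : Ph d → ℂ := G'.indicator (co ((b : ℝ) ^ (i + 1)) t' H) with hcdef
  have hc : MemLp c 2 volume := memLp_indicator_co ha' t' hG' H
  have hcH : ∫ β, ‖c β‖ ^ 2 ≤ ‖H‖ ^ 2 := integral_indicator_co_le ha' t' G' H
  set T : ℝ := 18 * 16 ^ d * ((5 * R) ^ d * Real.exp (-((b : ℝ) ^ 2 / 7))) with hT
  have hT0 : 0 ≤ T := by positivity
  set s := Finset.Ico (k' * (b : ℤ) ^ 2) ((k' + 1) * (b : ℤ) ^ 2) with hs
  have hcard : (s.card : ℝ) = (b : ℝ) ^ 2 := by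
    rw [hs, Int.card_Ico, show (k' + 1) * (b : ℤ) ^ 2 - k' * (b : ℤ) ^ 2 = (b ^ 2 : ℕ) by
      push_cast; ring, Int.toNat_natCast, Nat.cast_pow]
  have h1 : ∀ k ∈ s, ∫ β in Dir d, xray W ((k - 1) * L) ((k + 2) * L) β *
        ‖co ((b : ℝ) ^ i) (k * L) (loc ((b : ℝ) ^ (i + 1)) t' G' H) β‖ ^ 2 ≤
      6 * 9 ^ d * (∫ β, xray W ((k - 1) * L) ((k + 2) * L) β * ‖c β‖ ^ 2) +
        T * (Mx * L) * ‖H‖ ^ 2 := by
    intro k hk
    obtain ⟨hk1, hk2⟩ := Finset.mem_Ico.1 hk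
    have hk1' : (k' : ℝ) * (b : ℝ) ^ 2 ≤ k := by exact_mod_cast hk1
    have hk2' : (k : ℝ) < (k' + 1) * (b : ℝ) ^ 2 := by exact_mod_cast hk2
    have h2 := xray_transfer hW (h.sc_pos hi) (a := (b : ℝ) ^ i) (a' := (b : ℝ) ^ (i + 1))
      (t := k * L) (t' := t') (R := R) (q := b) (h.bpow_one i) (h.bpow_mono (by omega))
      (by rw [sq_pow]; exact (h.bpow_mono (by omega)).trans h.hL2)
      (by rw [sq_pow, hL', ht', abs_le]; constructor <;> nlinarith) h.b_one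
      (by
        refine le_trans ?_ (h.B_mul_le_sc hi)
        calc 10 * √d * b * (b : ℝ) ^ (i + 1) ≤ B * b * (b : ℝ) ^ (i + 1) := by
              gcongr; exact h.hBd
          _ = _ := by ring) hc
    rw [sq_pow, ← hL, show (k : ℝ) * L - L = (k - 1) * L by ring,
      show (k : ℝ) * L + 2 * L = (k + 2) * L by ring] at h2
    refine h2.trans (add_le_add le_rfl ?_)
    exact mul_le_mul_of_nonneg_left hcH (by positivity)
  refine (Finset.sum_le_sum h1).trans ?_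
  rw [Finset.sum_add_distrib, Finset.sum_const, nsmul_eq_mul, hcard, ← Finset.mul_sum]
  refine add_le_add ?_ (le_of_eq (by ring))
  have hI : ∀ k : ℤ, ((k : ℝ) - 1) * L ≤ (k + 2) * L := fun k => by nlinarith
  have hI' : ((k' : ℝ) - 1) * ((b : ℝ) ^ 2 * L) ≤ (k' + 2) * ((b : ℝ) ^ 2 * L) := by nlinarith
  have hco := memLp_co ha' t' H
  have i1 := (integrable_xray hW' hI' hco).indicator (measurableSet_Dir (d := d))
  have i2 := (hco.integrable_norm_pow two_ne_zero).const_mul e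
  rw [← integral_finsetSum _ fun k _ => integrable_xray hW (hI k) hc, ← integral_co_sq ha' t' H,
    ← integral_indicator measurableSet_Dir, ← integral_const_mul e, ← integral_add i1 i2,
    show (18 : ℝ) * 9 ^ d * C = 6 * 9 ^ d * (3 * C) by ring, mul_assoc (6 * 9 ^ d : ℝ),
    ← integral_const_mul (3 * C)]
  refine mul_le_mul_of_nonneg_left (integral_mono (integrable_finsetSum _ fun k _ =>
    integrable_xray hW (hI k) hc) ((i1.add i2).const_mul _) fun β => ?_) (by positivity)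
  dsimp only
  rw [← Finset.sum_mul]
  by_cases hβ : β ∈ G'
  · rw [indicator_of_mem (hGD hβ), hcdef, indicator_of_mem hβ, ← add_mul, ← mul_assoc]
    refine mul_le_mul_of_nonneg_right ?_ (by positivity)
    refine (sum_xray_le hW.1 hW0 (by linarith) _ _ (by nlinarith [sq_nonneg (b : ℤ)]) β).trans ?_
    have h3 := hav β hβ
    have h4 := xray_mono hW.1 hW.1 hW0 (fun _ => le_rfl)
      (t₁ := (((k' * (b : ℤ) ^ 2 : ℤ) : ℝ) - 1) * L) (t₂ := ((((k' + 1) * (b : ℤ) ^ 2 : ℤ) : ℝ) + 1) * L)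
      (s₁ := t' - (b : ℝ) ^ 2 * L / 2) (s₂ := t' - (b : ℝ) ^ 2 * L / 2 + 2 * ((b : ℝ) ^ 2 * L))
      (by push_cast; nlinarith) (by push_cast; nlinarith) (by push_cast; nlinarith) β
    linarith
  · rw [hcdef, indicator_of_notMem hβ, norm_zero, zero_pow two_ne_zero, mul_zero]
    refine mul_nonneg (by positivity) (add_nonneg (indicator_nonneg (fun β _ => mul_nonneg
      (xray_nonneg (fun u => (hW'.2.1 u).1) hI' β) (by positivity)) β) (by positivity))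

/-- the constant of one step -/
noncomputable def Dc (d M : ℕ) (C : ℝ) : ℝ :=
  (18 * 9 ^ d + 18 * 16 ^ d * 5 ^ d * (7 ^ (2 * M * (d + 1)) * (2 * M * (d + 1)).factorial)) * C

theorem le_Dc (d M : ℕ) {C : ℝ} (hC : 1 ≤ C) : 18 * 9 ^ d * C ≤ Dc d M C := by
  unfold Dc
  gcongr
  exact le_add_of_nonneg_right (by positivity)

theorem one_le_Dc (d M : ℕ) {C : ℝ} (hC : 1 ≤ C) : 1 ≤ Dc d M C := by
  refine le_trans ?_ (le_Dc d M hC)
  have : (1 : ℝ) ≤ 9 ^ d := one_le_pow₀ (by norm_num)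
  nlinarith

theorem tail_le {M : ℕ} {R B : ℝ} {b j i₀ : ℕ} (h : NF d M R B b j i₀) {C L n : ℝ} (hC : 1 ≤ C)
    (hL : 0 ≤ L) (hn : 0 ≤ n) {x : ℝ} (hx : 0 ≤ x) :
    18 * 9 ^ d * C * (x + L / (B * Ssc (d + 1) R ^ 2) * n) +
      18 * 16 ^ d * ((5 * R) ^ d * Real.exp (-((b : ℝ) ^ 2 / 7))) *
        (C * B / Ssc (d + 1) R ^ 2 * L) * n ≤
      Dc d M C * (x + L / (B * Ssc (d + 1) R ^ 2) * n) := by
  have hB := h.B_pos
  have hS := h.S_one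
  have hR := h.hR
  have h1 := h.tail (d + 1)
  have h2 : B ^ 2 ≤ R := by
    rw [← h.sqrt_sq]; gcongr; exact h.B_le_sqrt
  rw [Dc, add_mul, add_mul]
  refine add_le_add le_rfl ?_
  calc _ = 18 * 16 ^ d * 5 ^ d * (R ^ d * B ^ 2 * Real.exp (-((b : ℝ) ^ 2 / 7))) * C *
        (L / (B * Ssc (d + 1) R ^ 2) * n) := by rw [mul_pow]; field_simp
    _ ≤ _ := by
        have h3 : R ^ d * B ^ 2 * Real.exp (-((b : ℝ) ^ 2 / 7)) ≤
            7 ^ (2 * M * (d + 1)) * (2 * M * (d + 1)).factorial := by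
          refine le_trans ?_ h1
          rw [pow_succ R]; gcongr
        exact mul_le_mul (mul_le_mul_of_nonneg_right (mul_le_mul_of_nonneg_left h3 (by positivity))
          (by linarith)) (le_add_of_nonneg_left hx) (by positivity) (by positivity)

/-- the weighted energy of the level `i` -/
noncomputable def Elev {ι : Type} (R B : ℝ) (b i₀ M : ℕ) (X : Finset ι) (p : ι → V d × ℝ)
    (w : ι → ℝ) (G : ℕ → ℤ → Set (Ph d)) (k₀ : ℤ) (H : L2 d) (i : ℕ) : ℝ :=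
  ∑ k ∈ Finset.Ico (k₀ * (b : ℤ) ^ (2 * (M - i))) ((k₀ + 1) * (b : ℤ) ^ (2 * (M - i))),
    ∫ β in Dir d, xray (vv X p w (sc d R B b i₀ i)) ((k - 1) * (b : ℝ) ^ (2 * i))
      ((k + 2) * (b : ℝ) ^ (2 * i)) β *
      ‖co ((b : ℝ) ^ i) (k * (b : ℝ) ^ (2 * i)) (tower b G (i + 1) M H (k * (b : ℝ) ^ (2 * i))) β‖ ^ 2

section
variable {M : ℕ} {R B C : ℝ} {b j i₀ : ℕ} {ι : Type} {X : Finset ι} {p : ι → V d × ℝ} {w : ι → ℝ}
  {G : ℕ → ℤ → Set (Ph d)}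

theorem Elev_nonneg (h : NF d M R B b j i₀) (hw : ∀ z ∈ X, 0 ≤ w z) (k₀ : ℤ) (H : L2 d) {i : ℕ}
    (hi : i₀ ≤ i) : 0 ≤ Elev R B b i₀ M X p w G k₀ H i :=
  Finset.sum_nonneg fun k _ => integral_nonneg fun β => mul_nonneg
    (xray_nonneg (vv_nonneg hw (h.sc_pos hi)) (by nlinarith [h.bpow_one (2 * i)]) β) (by positivity)

theorem chain_step (h : NF d M R B b j i₀) (hC : 1 ≤ C) (hw : ∀ z ∈ X, 0 ≤ w z)
    (hN : ∀ i, i₀ ≤ i → Nice (vv X p w (sc d R B b i₀ i)) (C * B / Ssc (d + 1) R ^ 2)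
      (sc d R B b i₀ i))
    (hG : ∀ l k, MeasurableSet (G l k)) (hGD : ∀ l k, G l k ⊆ Dir d) {i : ℕ} (hi : i₀ ≤ i)
    (hiM : i < M) (k₀ : ℤ)
    (hav : ∀ k : ℤ, ∀ β ∈ G (i + 1) k, xray (vv X p w (sc d R B b i₀ i))
      (k * (b : ℝ) ^ (2 * (i + 1)) - (b : ℝ) ^ (2 * (i + 1)) / 2)
      (k * (b : ℝ) ^ (2 * (i + 1)) - (b : ℝ) ^ (2 * (i + 1)) / 2 + 2 * (b : ℝ) ^ (2 * (i + 1))) β ≤
      C * xray (vv X p w (sc d R B b i₀ (i + 1))) ((k - 1) * (b : ℝ) ^ (2 * (i + 1)))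
        ((k + 2) * (b : ℝ) ^ (2 * (i + 1))) β +
      C * ((b : ℝ) ^ (2 * (i + 1)) / (B * Ssc (d + 1) R ^ 2))) (H : L2 d) :
    Elev R B b i₀ M X p w G k₀ H i ≤ Dc d M C * (Elev R B b i₀ M X p w G k₀ H (i + 1) +
      (b : ℝ) ^ (2 * M) / (B * Ssc (d + 1) R ^ 2) * ‖H‖ ^ 2) := by
  have hB := h.B_pos
  have hS := h.S_one
  have hR := h.hR
  have hb : (0 : ℤ) < (b : ℤ) ^ 2 := by have := h.b_pos; positivity
  refine le_trans ?_ (tail_le h hC (by positivity) (by positivity)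
    (Elev_nonneg h hw k₀ H (by omega)))
  unfold Elev
  rw [show (b : ℤ) ^ (2 * (M - i)) = (b : ℤ) ^ (2 * (M - (i + 1))) * (b : ℤ) ^ 2 by
    rw [← pow_add]; congr 1; omega, ← mul_assoc k₀, ← mul_assoc (k₀ + 1), sum_windows _ _ _ hb]
  set s := Finset.Ico (k₀ * (b : ℤ) ^ (2 * (M - (i + 1)))) ((k₀ + 1) * (b : ℤ) ^ (2 * (M - (i + 1))))
    with hs
  have hcard : (s.card : ℝ) * (b : ℝ) ^ (2 * (i + 1)) = (b : ℝ) ^ (2 * M) := by
    rw [hs, Int.card_Ico, show (k₀ + 1) * (b : ℤ) ^ (2 * (M - (i + 1))) -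
      k₀ * (b : ℤ) ^ (2 * (M - (i + 1))) = (b ^ (2 * (M - (i + 1))) : ℕ) by
      push_cast; ring, Int.toNat_natCast, Nat.cast_pow, ← pow_add]
    congr 1; omega
  refine (Finset.sum_le_sum (g := fun k' : ℤ => 18 * 9 ^ d * C * ((∫ β in Dir d,
      xray (vv X p w (sc d R B b i₀ (i + 1))) ((k' - 1) * (b : ℝ) ^ (2 * (i + 1)))
        ((k' + 2) * (b : ℝ) ^ (2 * (i + 1))) β * ‖co ((b : ℝ) ^ (i + 1)) (k' * (b : ℝ) ^ (2 * (i + 1)))
        (tower b G (i + 1 + 1) M H (k' * (b : ℝ) ^ (2 * (i + 1)))) β‖ ^ 2) +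
        (b : ℝ) ^ (2 * (i + 1)) / (B * Ssc (d + 1) R ^ 2) * ‖H‖ ^ 2) +
      18 * 16 ^ d * ((5 * R) ^ d * Real.exp (-((b : ℝ) ^ 2 / 7))) *
        (C * B / Ssc (d + 1) R ^ 2 * (b : ℝ) ^ (2 * (i + 1))) * ‖H‖ ^ 2)
    fun k' _ => ?_).trans (le_of_eq ?_)
  · have h1 := step h hi hiM (hN i hi) (hN (i + 1) (by omega)) (by linarith) (by positivity)
      (hG (i + 1) k') (hGD _ _) k' (hav k') (tower b G (i + 1 + 1) M H (k' * (b : ℝ) ^ (2 * (i + 1))))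
    have h2 := norm_tower_le h.b_pos hG (i + 1 + 1) M H (k' * (b : ℝ) ^ (2 * (i + 1)))
    refine le_trans (le_of_eq (Finset.sum_congr rfl fun k hk => ?_)) (h1.trans (by gcongr))
    have h3 : win b (i + 1) (k * (b : ℝ) ^ (2 * i)) = win b (i + 1) (k' * (b : ℝ) ^ (2 * (i + 1))) := by
      rw [win_int h.b_pos, win_eq_div b (Nat.le_succ i), win_int h.b_pos,
        show 2 * (i.succ - i) = 2 by omega, Nat.cast_pow, ediv_eq_iff hb]
      exact Finset.mem_Ico.1 hk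
    rw [tower_congr h.b_pos G M H h3, tower_eq_loc b G (show i + 1 ≤ M by omega), lev, wt,
      win_int h.b_pos]
  · rw [Finset.sum_add_distrib, ← Finset.mul_sum, Finset.sum_add_distrib, Finset.sum_const,
      Finset.sum_const, nsmul_eq_mul, nsmul_eq_mul, ← hcard]
    ring

theorem chain_top (h : NF d M R B b j i₀) (hC : 1 ≤ C)
    (hN : Nice (vv X p w (sc d R B b i₀ M)) (C * B / Ssc (d + 1) R ^ 2) (sc d R B b i₀ M))
    {k₀ : ℤ} (hk₀ : |k₀ * (b : ℝ) ^ (2 * M)| ≤ 2 * R) {𝓡 : Set (Ph d)} (h𝓡 : MeasurableSet 𝓡)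
    (g : L2 d) :
    Elev R B b i₀ M X p w G k₀ (loc √R 0 𝓡 g) M ≤ Dc d M C *
      ((∫ β in 𝓡, xray (vv X p w (sc d R B b i₀ M)) ((k₀ - 1) * (b : ℝ) ^ (2 * M))
        ((k₀ + 2) * (b : ℝ) ^ (2 * M)) β * ‖co √R 0 g β‖ ^ 2) +
      (b : ℝ) ^ (2 * M) / (B * Ssc (d + 1) R ^ 2) * ‖g‖ ^ 2) := by
  have hB := h.B_pos
  have hS := h.S_one
  have hR := h.hR
  have hT : 0 < √R := by positivity
  have hI : ((k₀ : ℝ) - 1) * (b : ℝ) ^ (2 * M) ≤ (k₀ + 2) * (b : ℝ) ^ (2 * M) := by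
    nlinarith [h.bpow_one (2 * M)]
  have h0 : 0 ≤ ∫ β in 𝓡, xray (vv X p w (sc d R B b i₀ M)) ((k₀ - 1) * (b : ℝ) ^ (2 * M))
        ((k₀ + 2) * (b : ℝ) ^ (2 * M)) β * ‖co √R 0 g β‖ ^ 2 :=
    integral_nonneg fun β => mul_nonneg (xray_nonneg (fun u => (hN.2.1 u).1) hI β) (by positivity)
  refine le_trans ?_ (tail_le h hC (by positivity) (by positivity) h0)
  have h1 := xray_transfer hN (h.sc_pos h.hi.le) (a := (b : ℝ) ^ M) (a' := √R)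
    (t := k₀ * (b : ℝ) ^ (2 * M)) (t' := 0) (R := R) (q := b) (h.bpow_one M) (h.bpow_le_sqrt le_rfl)
    h.sqrt_sq.le (by rwa [h.sqrt_sq, sub_zero]) h.b_one
    (le_trans (by gcongr; exact h.hBd) h.top_le_sc) (memLp_indicator_co hT 0 h𝓡 g)
  rw [sq_pow, show (k₀ : ℝ) * (b : ℝ) ^ (2 * M) - (b : ℝ) ^ (2 * M) = (k₀ - 1) * (b : ℝ) ^ (2 * M) by
    ring, show (k₀ : ℝ) * (b : ℝ) ^ (2 * M) + 2 * (b : ℝ) ^ (2 * M) = (k₀ + 2) * (b : ℝ) ^ (2 * M) by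
    ring] at h1
  have h2 : ∫ β, xray (vv X p w (sc d R B b i₀ M)) ((k₀ - 1) * (b : ℝ) ^ (2 * M))
        ((k₀ + 2) * (b : ℝ) ^ (2 * M)) β * ‖𝓡.indicator (co √R 0 g) β‖ ^ 2 =
      ∫ β in 𝓡, xray (vv X p w (sc d R B b i₀ M)) ((k₀ - 1) * (b : ℝ) ^ (2 * M))
        ((k₀ + 2) * (b : ℝ) ^ (2 * M)) β * ‖co √R 0 g β‖ ^ 2 := by
    rw [← integral_indicator h𝓡]
    refine integral_congr_ae (.of_forall fun β => ?_)
    by_cases hβ : β ∈ 𝓡 <;> simp [hβ]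
  rw [h2] at h1
  rw [Elev, Nat.sub_self, mul_zero, pow_zero, mul_one, mul_one, Finset.Ico_add_one_right_eq_Icc,
    Finset.Icc_self, Finset.sum_singleton, tower_top]
  refine h1.trans (add_le_add ?_ ?_)
  · have h3 : (6 : ℝ) * 9 ^ d ≤ 18 * 9 ^ d * C := by
      have : (0 : ℝ) < 9 ^ d := by positivity
      nlinarith
    exact mul_le_mul h3 (le_add_of_nonneg_right (by positivity)) h0 (by positivity)
  · exact mul_le_mul_of_nonneg_left (integral_indicator_co_le hT 0 𝓡 g) (by positivity)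

end

end Crest.Agent.N76.II.UT
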