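import Crest.Agent.N76.II.UT.Basic

/-! # Row 76, upper tower: the numerical bookkeeping (helper14). -/

set_option autoImplicit false

namespace Crest.Agent.N76.II.UT

/-- the numerical hypotheses of `UT` -/
structure NF (d M : ℕ) (R B : ℝ) (b j i₀ : ℕ) : Prop where
  hd : 1 ≤ d
  hR : 1 ≤ R
  hB : 10 ≤ B
  hBd : 10 * √d ≤ B
  hb : 2 ≤ b
  hbB : (b : ℝ) ≤ B
  hL1 : R / B ≤ (b : ℝ) ^ (2 * M)
  hL2 : (b : ℝ) ^ (2 * M) ≤ R
  hj : j ≤ i₀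
  hi : i₀ < M
  h24 : B ^ 24 ≤ (b : ℝ) ^ j
  hS : (b : ℝ) ^ (2 * j) ≤ Ssc (d + 1) R
  h23 : Ssc (d + 1) R ^ 2 * B ^ 23 ≤ (b : ℝ) ^ (2 * i₀)
  hi0 : (b : ℝ) ^ i₀ ≤ Ssc (d + 1) R ^ 2
  hi0' : (b : ℝ) ^ (2 * i₀) ≤ Ssc (d + 1) R ^ 2 * (b : ℝ) ^ j

/-- the averaging scale of level `i` -/
noncomputable def sc (d : ℕ) (R B : ℝ) (b i₀ i : ℕ) : ℝ :=
  if i = i₀ then Ssc (d + 1) R ^ 2 * B ^ 3 else (b : ℝ) ^ (2 * i) / B ^ 20

theorem sq_pow (b i : ℕ) : ((b : ℝ) ^ i) ^ 2 = (b : ℝ) ^ (2 * i) := by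
  rw [← pow_mul, mul_comm]

namespace NF

variable {d M : ℕ} {R B : ℝ} {b j i₀ : ℕ} (h : NF d M R B b j i₀)
include h

theorem B_pos : 0 < B := by linarith [h.hB]
theorem B_one : 1 ≤ B := by linarith [h.hB]
theorem b_pos : 0 < b := by linarith [h.hb]
theorem b_two : (2 : ℝ) ≤ b := by exact_mod_cast h.hb
theorem b_one : (1 : ℝ) ≤ b := by linarith [h.b_two]
theorem bpow_mono {x y : ℕ} (hxy : x ≤ y) : (b : ℝ) ^ x ≤ (b : ℝ) ^ y :=
  pow_le_pow_right₀ h.b_one hxy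
theorem Bpow_mono {x y : ℕ} (hxy : x ≤ y) : B ^ x ≤ B ^ y := pow_le_pow_right₀ h.B_one hxy
theorem bpow_one (x : ℕ) : 1 ≤ (b : ℝ) ^ x := one_le_pow₀ h.b_one

theorem B48 : B ^ 48 ≤ Ssc (d + 1) R := by
  refine le_trans ?_ h.hS
  rw [← sq_pow, show 48 = 24 * 2 by norm_num, pow_mul]
  exact pow_le_pow_left₀ (by have := h.B_pos; positivity) h.h24 2

theorem Bpow_le_S {x : ℕ} (hx : x ≤ 48) : B ^ x ≤ Ssc (d + 1) R := (h.Bpow_mono hx).trans h.B48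

theorem S_one : 1 ≤ Ssc (d + 1) R := by simpa using h.Bpow_le_S (x := 0) (by norm_num)

theorem S3_le : Ssc (d + 1) R ^ 3 ≤ √R := by
  rw [← Ssc_pow (d := d) h.hR]
  exact pow_le_pow_right₀ h.S_one (by linarith [h.hd])

theorem sqrt_sq : √R ^ 2 = R := Real.sq_sqrt (by linarith [h.hR])

theorem sqrt_one : 1 ≤ √R := Real.one_le_sqrt.2 h.hR

theorem sqrt_le : √R ≤ R := by nlinarith [h.sqrt_sq, h.sqrt_one]

theorem S_le_sqrt : Ssc (d + 1) R ≤ √R :=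
  (le_self_pow₀ h.S_one (by norm_num)).trans h.S3_le

theorem B_le_sqrt : B ≤ √R := by simpa using (h.Bpow_le_S (x := 1) (by norm_num)).trans h.S_le_sqrt

theorem sqrt_le_L : √R ≤ (b : ℝ) ^ (2 * M) := by
  refine le_trans ?_ h.hL1
  rw [le_div_iff₀ h.B_pos]
  nlinarith [h.sqrt_sq, h.sqrt_one, h.B_le_sqrt]

theorem R_le : R ≤ (b : ℝ) ^ (4 * M) := by
  have := pow_le_pow_left₀ (Real.sqrt_nonneg R) h.sqrt_le_L 2
  rwa [h.sqrt_sq, ← pow_mul, show 2 * M * 2 = 4 * M by ring] at this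

theorem one_le_err : 1 ≤ (b : ℝ) ^ (2 * M) / (B * Ssc (d + 1) R ^ 2) := by
  have h1 := h.S_one
  have h2 := h.B_pos
  rw [one_le_div (by positivity)]
  refine le_trans ?_ (h.S3_le.trans h.sqrt_le_L)
  have : B ≤ Ssc (d + 1) R := by simpa using h.Bpow_le_S (x := 1) (by norm_num)
  calc B * Ssc (d + 1) R ^ 2 ≤ Ssc (d + 1) R * Ssc (d + 1) R ^ 2 := by gcongr
    _ = _ := by ring

theorem rho_le_bM : Ssc (d + 1) R ^ 2 ≤ (b : ℝ) ^ M := by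
  have h1 := h.S_one
  have h2 := h.B_pos
  refine le_of_sq_le_sq ?_ (by positivity)
  rw [sq_pow]
  refine le_trans ?_ h.hL1
  rw [le_div_iff₀ h2]
  have h3 : B ≤ Ssc (d + 1) R := by simpa using h.Bpow_le_S (x := 1) (by norm_num)
  have h4 := pow_le_pow_left₀ (by positivity) h.S3_le 2
  rw [h.sqrt_sq] at h4
  calc (Ssc (d + 1) R ^ 2) ^ 2 * B ≤ (Ssc (d + 1) R ^ 2) ^ 2 * Ssc (d + 1) R ^ 2 := by
        gcongr; exact h3.trans (le_self_pow₀ h1 (by norm_num))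
    _ = (Ssc (d + 1) R ^ 3) ^ 2 := by ring
    _ ≤ R := h4

theorem bpow_le_sqrt {i : ℕ} (hi : i ≤ M) : (b : ℝ) ^ i ≤ √R := by
  refine Real.le_sqrt_of_sq_le ?_
  rw [sq_pow]; exact (h.bpow_mono (by omega)).trans h.hL2

theorem sc_le {i : ℕ} (hi : i₀ ≤ i) : sc d R B b i₀ i ≤ (b : ℝ) ^ (2 * i) / B ^ 20 := by
  unfold sc
  split_ifs with h1
  · have := h.B_pos
    rw [h1, le_div_iff₀ (by positivity)]
    refine le_trans (le_of_eq (by ring)) h.h23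
  · exact le_rfl

theorem le_sc {i : ℕ} (hi : i₀ ≤ i) : Ssc (d + 1) R ^ 2 * B ^ 3 ≤ sc d R B b i₀ i := by
  unfold sc
  split_ifs with h1
  · exact le_rfl
  · have := h.B_pos
    rw [le_div_iff₀ (by positivity)]
    refine le_trans (le_of_eq (by ring)) (h.h23.trans (h.bpow_mono (by omega)))

theorem rho_le_sc {i : ℕ} (hi : i₀ ≤ i) : Ssc (d + 1) R ^ 2 ≤ sc d R B b i₀ i :=
  (le_mul_of_one_le_right (by positivity) (one_le_pow₀ h.B_one)).trans (h.le_sc hi)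

theorem sc_pos {i : ℕ} (hi : i₀ ≤ i) : 0 < sc d R B b i₀ i :=
  lt_of_lt_of_le (by have := h.S_one; positivity) (h.rho_le_sc hi)

theorem sc_succ {i : ℕ} (hi : i₀ ≤ i) :
    sc d R B b i₀ (i + 1) = (b : ℝ) ^ (2 * (i + 1)) / B ^ 20 := if_neg (by omega)

theorem sc_mono {i : ℕ} (hi : i₀ ≤ i) : sc d R B b i₀ i ≤ sc d R B b i₀ (i + 1) := by
  rw [h.sc_succ hi]
  refine (h.sc_le hi).trans ?_
  have := h.B_pos
  gcongr
  · exact h.b_one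
  · omega

theorem sc_le_half {i : ℕ} (hi : i₀ ≤ i) : sc d R B b i₀ i ≤ (b : ℝ) ^ (2 * i) / 2 := by
  refine (h.sc_le hi).trans ?_
  have h1 : B ≤ B ^ 20 := by simpa using h.Bpow_mono (show 1 ≤ 20 by norm_num)
  have := h.hB
  gcongr; linarith

theorem B_mul_le_sc {i : ℕ} (hi : i₀ ≤ i) : B * (b : ℝ) ^ 2 * (b : ℝ) ^ i ≤ sc d R B b i₀ i := by
  have hB := h.B_pos
  have hb2 : (b : ℝ) ^ 2 ≤ B ^ 2 := by gcongr; exact h.hbB
  unfold sc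
  split_ifs with h1
  · rw [h1]
    calc _ ≤ B * B ^ 2 * Ssc (d + 1) R ^ 2 := by gcongr; exact h.hi0
      _ = _ := by ring
  · rw [le_div_iff₀ (by positivity), ← sq_pow]
    have h2 : B ^ 23 ≤ (b : ℝ) ^ i :=
      ((h.Bpow_mono (by norm_num)).trans h.h24).trans (h.bpow_mono (by linarith [h.hj]))
    calc _ ≤ B * B ^ 2 * (b : ℝ) ^ i * B ^ 20 := by gcongr
      _ = B ^ 23 * (b : ℝ) ^ i := by ring
      _ ≤ (b : ℝ) ^ i * (b : ℝ) ^ i := by gcongr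
      _ = _ := by ring

theorem win_le_sc {i : ℕ} (hi : i₀ ≤ i) :
    2 * (b : ℝ) ^ (2 * (i + 1)) / (b : ℝ) ^ j ≤ sc d R B b i₀ i / 4 := by
  have hB := h.B_pos
  have hb0 : (0 : ℝ) < b := by linarith [h.b_two]
  have hb2 : (b : ℝ) ^ 2 ≤ B ^ 2 := by gcongr; exact h.hbB
  have e : (b : ℝ) ^ (2 * (i + 1)) = (b : ℝ) ^ 2 * (b : ℝ) ^ (2 * i) := by ring
  rw [div_le_div_iff₀ (by positivity) (by norm_num), e]
  have h8 : 8 ≤ B := by linarith [h.hB]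
  unfold sc
  split_ifs with h1
  · rw [h1]
    calc _ = 8 * (b : ℝ) ^ 2 * (b : ℝ) ^ (2 * i₀) := by ring
      _ ≤ B * B ^ 2 * (Ssc (d + 1) R ^ 2 * (b : ℝ) ^ j) := by gcongr; exact h.hi0'
      _ = _ := by ring
  · rw [div_mul_eq_mul_div, le_div_iff₀ (by positivity)]
    calc _ = 8 * (b : ℝ) ^ 2 * B ^ 20 * (b : ℝ) ^ (2 * i) := by ring
      _ ≤ B * B ^ 2 * B ^ 20 * (b : ℝ) ^ (2 * i) := by gcongr
      _ = B ^ 23 * (b : ℝ) ^ (2 * i) := by ring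
      _ ≤ (b : ℝ) ^ j * (b : ℝ) ^ (2 * i) := by
          gcongr; exact (h.Bpow_mono (by norm_num)).trans h.h24
      _ = _ := by ring

theorem top_le_sc : B * b * √R ≤ sc d R B b i₀ M := by
  have hB := h.B_pos
  rw [sc, if_neg h.hi.ne', le_div_iff₀ (by positivity)]
  refine le_trans ?_ h.hL1
  rw [le_div_iff₀ hB]
  have h1 : B ^ 23 ≤ √R := (h.Bpow_le_S (by norm_num)).trans h.S_le_sqrt
  have h2 := h.sqrt_one
  calc _ ≤ B * B * √R * B ^ 20 * B := by gcongr; exact h.hbB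
    _ = B ^ 23 * √R := by ring
    _ ≤ √R * √R := by gcongr
    _ = R := by rw [← sq, h.sqrt_sq]

/-- Gaussian tails beat every power of `R` -/
theorem tail (N : ℕ) : R ^ N * Real.exp (-((b : ℝ) ^ 2 / 7)) ≤
    7 ^ (2 * M * N) * (2 * M * N).factorial := by
  have h1 := pow_mul_exp_neg_le (x := (b : ℝ) ^ 2 / 7) (by positivity) (2 * M * N)
  have h2 : R ^ N ≤ 7 ^ (2 * M * N) * ((b : ℝ) ^ 2 / 7) ^ (2 * M * N) := by
    rw [← mul_pow, mul_div_cancel₀ _ (by norm_num), ← pow_mul,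
      show 2 * (2 * M * N) = 4 * M * N by ring, pow_mul]
    exact pow_le_pow_left₀ (by linarith [h.hR]) h.R_le N
  calc _ ≤ 7 ^ (2 * M * N) * ((b : ℝ) ^ 2 / 7) ^ (2 * M * N) *
        Real.exp (-((b : ℝ) ^ 2 / 7)) := by gcongr
    _ ≤ _ := by rw [mul_assoc]; gcongr

theorem tail' (N : ℕ) : R ^ N * Real.exp (-(b : ℝ)) ≤ (4 * M * N).factorial := by
  refine le_trans ?_ (pow_mul_exp_neg_le (x := (b : ℝ)) (by positivity) (4 * M * N))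
  gcongr
  rw [pow_mul]
  exact pow_le_pow_left₀ (by linarith [h.hR]) h.R_le N

end NF

end Crest.Agent.N76.II.UT
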